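import Vale.Agent.P370S.Sp
import Vale.Agent.P363.R.Sob.S16

/-! The operator of the form of `-(1/2) Δ + w` for a form bounded potential `w`. -/

set_option linter.all false

namespace Vale.Agent.P370S

open MeasureTheory Filter Topology P363.Stmt P363.H382 P363.R.Sob ContinuousLinearMap
open scoped ComplexConjugate ContDiff

noncomputable section

variable {N : ℕ}

attribute [local instance] complete

/-- `V` represents the potential `w` on the form domain, with small relative bound -/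
structure Rep (w : Conf N → ℝ) (V : FS N →L[ℂ] FS N) : Prop where
  int : ∀ (u v : FS N) s, Integrable fun x => w x * (conj (u.1 (s, none) x) * v.1 (s, none) x)
  eq : ∀ u v : FS N, inner ℂ u (V v) =
    ∑ s, ∫ x, w x * (conj (u.1 (s, none) x) * v.1 (s, none) x)
  bd : ∃ C : ℝ, 0 ≤ C ∧ ∀ u : FS N, -(1 / 4 * kin u.1 + C * ‖JF N u‖ ^ 2) ≤ (inner ℂ u (V u)).re

section abs

variable {W H : Type} [NormedAddCommGroup W] [InnerProductSpace ℂ W] [CompleteSpace W]
  [NormedAddCommGroup H] [InnerProductSpace ℂ H] [CompleteSpace H]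

/-- kinetic part plus `V` -/
def opG (J : W →L[ℂ] H) (V : W →L[ℂ] W) : W →L[ℂ] W := (1 / 2 : ℂ) • (1 - adjoint J ∘L J) + V

theorem opG_inner (J : W →L[ℂ] H) (V : W →L[ℂ] W) (u v : W) : inner ℂ u (opG J V v) =
    1 / 2 * (inner ℂ u v - inner ℂ (J u) (J v)) + inner ℂ u (V v) := by
  simp only [opG, add_apply, smul_apply, sub_apply, comp_apply, inner_add_right,
    inner_smul_right, inner_sub_right, adjoint_inner_right]
  rfl

theorem graph_span {J : W →L[ℂ] H} (hJ : DenseRange J) (hi : Function.Injective J)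
    {B : W →L[ℂ] W} {G : Set (H × H)}
    (hG : ∀ p, p ∈ G ↔ ∃ u, J u = p.1 ∧ ∀ v, inner ℂ v (B u) = inner ℂ (J v) p.2) :
    ((Submodule.span ℂ G).toLinearPMap.graph : Set (H × H)) = G := by
  have k : ∀ p ∈ Submodule.span ℂ G, p ∈ G := fun p hp => by
    rw [hG]
    induction hp using Submodule.span_induction with
    | mem p hp => exact (hG p).1 hp
    | zero => exact ⟨0, by simp, by simp⟩
    | add p q _ _ hp hq =>
      obtain ⟨u, h1, h2⟩ := hp
      obtain ⟨v, h3, h4⟩ := hq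
      exact ⟨u + v, by rw [map_add, h1, h3]; rfl, fun z => by
        rw [map_add, inner_add_right, h2, h4, Prod.snd_add, inner_add_right]⟩
    | smul a p _ hp =>
      obtain ⟨u, h1, h2⟩ := hp
      exact ⟨a • u, by rw [map_smul, h1]; rfl, fun z => by
        rw [map_smul, inner_smul_right, h2, Prod.smul_snd, inner_smul_right]⟩
  rw [Submodule.toLinearPMap_graph_eq]
  · exact Set.Subset.antisymm k Submodule.subset_span
  · intro p hp h0
    obtain ⟨u, h1, h2⟩ := (hG p).1 (k p hp)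
    obtain rfl : u = 0 := hi (by rw [h1, h0, map_zero])
    refine hJ.eq_zero_of_inner_right ℂ fun v => ?_
    rw [← h2, map_zero, inner_zero_right]

end abs

/-- the operator of the form on the form domain -/
def opB (V : FS N →L[ℂ] FS N) : FS N →L[ℂ] FS N := opG (JF N) V

theorem opB_inner (V : FS N →L[ℂ] FS N) (u v : FS N) : inner ℂ u (opB V v) =
    1 / 2 * (inner ℂ u v - inner ℂ (JF N u) (JF N v)) + inner ℂ u (V v) := opG_inner _ _ _ _

theorem JF_inj (N : ℕ) : Function.Injective (JF N) := fun u v h => by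
  refine Subtype.ext (PiLp.ext fun p => ?_)
  rcases p with ⟨s, _ | ⟨i, k⟩⟩
  · rw [← JF_apply, ← JF_apply, h]
  · exact Lp.ext ((grad_ae u s i k).symm.trans (h ▸ grad_ae v s i k))

theorem kin_nonneg (u : Amb N) : 0 ≤ kin u := by unfold kin; positivity

theorem norm_LC (f : LC N) : ‖f‖ ^ 2 = ∫ x, ‖f x‖ ^ 2 := by
  have h := P363.H518.norm_toLp_sq (Lp.memLp f)
  rwa [Lp.toLp_coeFn] at h

theorem normSq_ofFS (u : FS N) : normSq (ofFS u) = ‖JF N u‖ ^ 2 := by
  rw [show ‖JF N u‖ ^ 2 = ‖am u.1‖ ^ 2 from rfl, norm_am_sq]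
  exact Finset.sum_congr rfl fun s _ => (norm_LC _).symm

namespace Rep

variable {w : Conf N → ℝ} {V : FS N →L[ℂ] FS N} (h : Rep w V)
include h

theorem form_eq (u v : FS N) : form w (JF N u) (JF N v) = inner ℂ u (opB V v) := by
  rw [opB_inner, h.eq, inner_FS, add_sub_cancel_left]
  rfl

theorem re_eq (u : FS N) :
    (inner ℂ u (opB V u)).re = 1 / 2 * kin u.1 + (inner ℂ u (V u)).re := by
  rw [opB_inner, inner_self_eq_norm_sq_to_K, inner_self_eq_norm_sq_to_K]
  have e : ((‖u‖ : ℝ) : ℂ) ^ 2 - ((‖JF N u‖ : ℝ) : ℂ) ^ 2 = (kin u.1 : ℝ) := by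
    have := norm_FS u
    exact_mod_cast (by linarith : ‖u‖ ^ 2 - ‖JF N u‖ ^ 2 = kin u.1)
  change ((1 / 2 : ℂ) * (((‖u‖ : ℝ) : ℂ) ^ 2 - ((‖JF N u‖ : ℝ) : ℂ) ^ 2) + _).re = _
  rw [e]
  simp

theorem energy_eq (u : FS N) : energy w (ofFS u) = (inner ℂ u (opB V u)).re := by
  rw [h.re_eq, h.eq, Complex.re_sum, energy]
  congr 1
  · congr 1
    exact Finset.sum_congr rfl fun s _ => Finset.sum_congr rfl fun i _ =>
      Finset.sum_congr rfl fun k _ => (norm_LC _).symm
  · refine Finset.sum_congr rfl fun s _ => ?_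
    have : ∀ x, (w x : ℂ) * (conj (u.1 (s, none) x) * u.1 (s, none) x) =
        ((w x * ‖u.1 (s, none) x‖ ^ 2 : ℝ) : ℂ) := fun x => by
      rw [Complex.conj_mul']; push_cast; rfl
    simp only [this, integral_complex_ofReal, Complex.ofReal_re]
    rfl

theorem mem_graph {p : Fer N × Fer N} : p ∈ formGraph w ↔
    ∃ u, JF N u = p.1 ∧ ∀ v, inner ℂ v (opB V u) = inner ℂ (JF N v) p.2 := by
  constructor
  · rintro ⟨h1, h2⟩
    obtain ⟨u, hu⟩ := inH1_iff.1 h1
    exact ⟨u, hu, fun v => by rw [← h.form_eq, hu, h2 _ (inH1_iff.2 ⟨v, rfl⟩)]⟩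
  · rintro ⟨u, hu, hv⟩
    refine ⟨inH1_iff.2 ⟨u, hu⟩, fun φ hφ => ?_⟩
    obtain ⟨v, rfl⟩ := inH1_iff.1 hφ
    rw [← hu, h.form_eq, hv]

theorem graph_eq : ((ham w).graph : Set (Fer N × Fer N)) = formGraph w :=
  graph_span (JF_dense N) (JF_inj N) fun _ => h.mem_graph

theorem kit : Kit (JF N) (opB V) (ham w) where
  den := JF_dense N
  sa u v := by
    rw [← inner_conj_symm, opB_inner, opB_inner, h.eq, h.eq, map_add, map_mul, map_sub,
      inner_conj_symm, inner_conj_symm, map_sum]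
    congr 1
    · rw [map_div₀, map_one, map_ofNat]
    · refine Finset.sum_congr rfl fun s _ => ?_
      rw [← integral_conj]
      congr 1
      funext x
      simp only [map_mul, Complex.conj_ofReal, Complex.conj_conj]
      ring
  coe := by
    obtain ⟨C, h0, hC⟩ := h.bd
    refine ⟨1 / 4, by norm_num, C + 1 / 4, by positivity, fun u => ?_⟩
    have := hC u
    rw [h.re_eq, norm_FS]
    linarith
  gr p := (Set.ext_iff.1 h.graph_eq p).trans h.mem_graph

theorem closedForm : IsClosedForm w where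
  int φ ψ h1 h2 s := by
    obtain ⟨u, rfl⟩ := inH1_iff.1 h1
    obtain ⟨v, rfl⟩ := inH1_iff.1 h2
    exact h.int u v s
  dense := (JF_dense N).mono fun _ hψ => inH1_iff.2 hψ
  low := ⟨_, fun ψ hψ => by
    obtain ⟨u, rfl⟩ := inH1_iff.1 hψ
    rw [h.form_eq]
    exact h.kit.low u⟩
  closed ψ φ h1 h2 h3 := by
    choose u hu using fun n => inH1_iff.1 (h1 n)
    obtain rfl : ψ = fun n => JF N (u n) := (funext hu).symm
    simp only [← map_sub, h.form_eq] at h3
    obtain ⟨v, rfl, hv⟩ := h.kit.closed h2 h3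
    refine ⟨inH1_iff.2 ⟨v, rfl⟩, ?_⟩
    simpa only [← map_sub, h.form_eq] using hv

theorem ne : (vals (JF N) (opB V)).Nonempty := (exists_unit N).elim fun u hu => ⟨_, u, hu, rfl⟩

theorem isLeast : IsLeast {t : ℝ | (t : ℂ) ∈ spec (ham w)} (sInf (vals (JF N) (opB V))) :=
  h.kit.isLeast h.ne

theorem inf_eq : ((sInf {t : ℝ | (t : ℂ) ∈ spec (ham w)} : ℝ) : EReal) =
    ⨅ Ψ : {Ψ : ElectronState N // normSq Ψ = 1}, ((energy w Ψ.1 : ℝ) : EReal) := by
  rw [h.isLeast.csInf_eq]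
  refine le_antisymm (le_iInf fun Ψ => EReal.coe_le_coe_iff.2 ?_) (not_lt.1 fun hlt => ?_)
  · have := h.kit.low (toFS Ψ.1)
    rwa [← h.energy_eq, ← normSq_ofFS, energy_congr w _ Ψ.1 (amb_none_ae Ψ.1),
      normSq_congr _ Ψ.1 (amb_none_ae Ψ.1), Ψ.2, mul_one] at this
  · obtain ⟨r, h1, h2⟩ := EReal.lt_iff_exists_real_btwn.1 hlt
    obtain ⟨_, ⟨u, hu, rfl⟩, h3⟩ := exists_lt_of_csInf_lt h.ne (EReal.coe_lt_coe_iff.1 h1)
    refine (h2.trans_le (iInf_le _ ⟨ofFS u, by rw [normSq_ofFS, hu, one_pow]⟩)).not_ge ?_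
    rw [h.energy_eq]
    exact EReal.coe_le_coe_iff.2 h3.le

end Rep

/-- multiplication by `w` maps the form domain into `L²`, with a Hardy type bound -/
def Hd (w : Conf N → ℝ) : Prop := ∃ C : ℝ, 0 ≤ C ∧ ∀ (u : FS N) (s : Spn N), ∃ g : LC N,
  (g =ᵐ[volume] fun x => w x * u.1 (s, none) x) ∧ ‖g‖ ≤ C * √(kin u.1)

theorem Hd.zero : Hd (fun _ : Conf N => 0) :=
  ⟨0, le_rfl, fun u s => ⟨0, (Lp.coeFn_zero ℂ 2 volume).trans (by simp [EventuallyEq]), by simp⟩⟩

theorem Hd.add {w w' : Conf N → ℝ} (h : Hd w) (h' : Hd w') : Hd fun x => w x + w' x := by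
  obtain ⟨C, h0, h⟩ := h
  obtain ⟨C', h0', h'⟩ := h'
  refine ⟨C + C', by positivity, fun u s => ?_⟩
  obtain ⟨g, h1, h2⟩ := h u s
  obtain ⟨g', h3, h4⟩ := h' u s
  refine ⟨g + g', ?_, (norm_add_le _ _).trans (by linarith)⟩
  filter_upwards [Lp.coeFn_add g g', h1, h3] with x a1 a2 a3
  rw [a1, Pi.add_apply, a2, a3]
  push_cast
  ring

theorem Hd.mul {w : Conf N → ℝ} (h : Hd w) (c : ℝ) : Hd fun x => c * w x := by
  obtain ⟨C, h0, h⟩ := h
  refine ⟨|c| * C, by positivity, fun u s => ?_⟩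
  obtain ⟨g, h1, h2⟩ := h u s
  refine ⟨(c : ℂ) • g, ?_, ?_⟩
  · filter_upwards [Lp.coeFn_smul (c : ℂ) g, h1] with x a1 a2
    rw [a1, Pi.smul_apply, a2, smul_eq_mul]
    push_cast
    ring
  · rw [norm_smul, Complex.norm_real, Real.norm_eq_abs, mul_assoc]
    gcongr

theorem Hd.sum {ι : Type} (t : Finset ι) {w : ι → Conf N → ℝ} (h : ∀ i ∈ t, Hd (w i)) :
    Hd fun x => ∑ i ∈ t, w i x := by
  classical
  induction t using Finset.induction_on with
  | empty => simpa using Hd.zero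
  | insert a t ha ih =>
    simp only [Finset.sum_insert ha]
    exact (h a (Finset.mem_insert_self _ _)).add (ih fun i hi => h i (Finset.mem_insert_of_mem hi))

theorem Hd.list {ι : Type} (l : List ι) {w : ι → Conf N → ℝ} (h : ∀ i, Hd (w i)) :
    Hd fun x => (l.map fun i => w i x).sum := by
  induction l with
  | nil => simpa using Hd.zero
  | cons a l ih => simpa using (h a).add ih

theorem Hd.coul (p : Conf N →L[ℝ] R3) (a : R3) (i : Fin N)
    (hp : ∀ k, p (dir i k) = EuclideanSpace.single k 1) : Hd fun x => 1 / ‖p x - a‖ := by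
  refine ⟨2, by norm_num, fun u s => ?_⟩
  obtain ⟨h1, h2⟩ := hardy (μ := (volume : Measure (Conf N))) p a (fun k => dir i k) hp
    (Lp.memLp (u.1 (s, none))) (fun k => Lp.memLp (u.1 (s, some (i, k)))) fun k => u.2.1 s i k
  have e : ∀ x, ‖((1 / ‖p x - a‖ : ℝ) : ℂ) * u.1 (s, none) x‖ ^ 2 =
      ‖u.1 (s, none) x‖ ^ 2 / ‖p x - a‖ ^ 2 := fun x => by
    rw [norm_mul, Complex.norm_real, norm_div, norm_one, norm_norm]
    ring
  have hm : MemLp (fun x => ((1 / ‖p x - a‖ : ℝ) : ℂ) * u.1 (s, none) x) 2 volume := by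
    rw [memLp_two_iff_integrable_sq_norm]
    · simpa only [e] using h1
    · refine AEStronglyMeasurable.mul ?_ (Lp.memLp _).1
      exact (Complex.measurable_ofReal.comp (measurable_const.div
        (p.measurable.sub_const a).norm)).aestronglyMeasurable
  refine ⟨hm.toLp _, hm.coeFn_toLp, abs_le_of_sq_le_sq' ?_ (by positivity) |>.2⟩
  rw [P363.H518.norm_toLp_sq, mul_pow, Real.sq_sqrt (kin_nonneg _)]
  simp only [e]
  refine h2.trans ?_
  simp only [← norm_LC]
  have : ∑ k, ‖u.1 (s, some (i, k))‖ ^ 2 ≤ kin u.1 :=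
    (Finset.single_le_sum (f := fun i => ∑ k, ‖u.1 (s, some (i, k))‖ ^ 2)
      (fun _ _ => by positivity) (Finset.mem_univ i)).trans
      (Finset.single_le_sum (f := fun s => ∑ i, ∑ k, ‖u.1 (s, some (i, k))‖ ^ 2)
        (fun _ _ => by positivity) (Finset.mem_univ s))
  linarith

theorem Hd.rep {w : Conf N → ℝ} (h : Hd w) : ∃ V, Rep w V := by
  obtain ⟨C, h0, h⟩ := h
  choose g h1 h2 using h
  have hk : ∀ u : FS N, √(kin u.1) ≤ ‖u‖ := fun u =>
    Real.sqrt_le_iff.2 ⟨norm_nonneg _, by rw [norm_FS]; nlinarith [sq_nonneg ‖JF N u‖]⟩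
  let M : Spn N → FS N →L[ℂ] LC N := fun s => LinearMap.mkContinuous
    { toFun := fun u => g u s
      map_add' := fun u v => Lp.ext (by
        filter_upwards [h1 (u + v) s, h1 u s, h1 v s, Lp.coeFn_add (g u s) (g v s),
          Lp.coeFn_add (u.1 (s, none)) (v.1 (s, none))] with x a1 a2 a3 a4 a5
        rw [a1, a4, Pi.add_apply, a2, a3, ← mul_add]
        exact congrArg _ a5)
      map_smul' := fun c u => Lp.ext (by
        filter_upwards [h1 (c • u) s, h1 u s, Lp.coeFn_smul c (g u s),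
          Lp.coeFn_smul c (u.1 (s, none))] with x a1 a2 a3 a4
        rw [a1, RingHom.id_apply, a3, Pi.smul_apply, a2, smul_eq_mul, mul_left_comm]
        exact congrArg _ a4) } C fun u => (h2 u s).trans (by gcongr; exact hk u)
  let P : Spn N → FS N →L[ℂ] LC N := fun s =>
    (PiLp.proj 2 (fun _ : Idx N => LC N) (s, none)).comp (FSub N).subtypeL
  have e : ∀ u v : FS N, inner ℂ u ((∑ s, adjoint (P s) ∘L M s) v) =
      ∑ s, inner ℂ (u.1 (s, none)) (g v s) := fun u v => by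
    simp only [sum_apply, inner_sum, comp_apply, adjoint_inner_right]
    rfl
  have e2 : ∀ (u v : FS N) s, (fun x => inner ℂ (u.1 (s, none) x) (g v s x)) =ᵐ[volume]
      fun x => w x * (conj (u.1 (s, none) x) * v.1 (s, none) x) := fun u v s => by
    filter_upwards [h1 v s] with x hx
    rw [hx, RCLike.inner_apply]
    ring
  refine ⟨∑ s, adjoint (P s) ∘L M s, fun u v s => (L2.integrable_inner _ _).congr (e2 u v s),
    fun u v => ?_, (Fintype.card (Spn N) * C) ^ 2, by positivity, fun u => ?_⟩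
  · rw [e]
    exact Finset.sum_congr rfl fun s _ => (L2.inner_def _ _).trans (integral_congr_ae (e2 u v s))
  · rw [e]
    have b : ‖∑ s, inner ℂ (u.1 (s, none)) (g u s)‖ ≤
        Fintype.card (Spn N) * (‖JF N u‖ * (C * √(kin u.1))) := by
      refine (norm_sum_le _ _).trans ((Finset.sum_le_card_nsmul _ _ _ fun s _ => ?_).trans
        (nsmul_eq_mul _ _).le)
      refine (norm_inner_le_norm _ _).trans (mul_le_mul ?_ (h2 u s) (norm_nonneg _)
        (norm_nonneg _))
      exact PiLp.norm_apply_le (JF N u).1 s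
    have b2 := (neg_le_abs _).trans ((Complex.abs_re_le_norm _).trans b)
    nlinarith [Real.sq_sqrt (kin_nonneg u.1),
      sq_nonneg (√(kin u.1) / 2 - Fintype.card (Spn N) * C * ‖JF N u‖)]

end

end Vale.Agent.P370S
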