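import Mathlib.Analysis.InnerProductSpace.LinearPMap
import Vale.Agent.P363.H382.Conv

/-!
# The electronic Hamiltonian as the self-adjoint operator of its form
-/

namespace Vale.Agent.P370S

open MeasureTheory Filter Topology P363.Stmt
open scoped ComplexConjugate

noncomputable section

/-- The spectrum of an unbounded operator `A`: the numbers `z` such that `A - z` is not a
bijection from the domain of `A` onto the space with a bounded inverse. -/
def spec {E : Type} [NormedAddCommGroup E] [NormedSpace ℂ E] (A : E →ₗ.[ℂ] E) : Set ℂ :=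
  {z | ¬ ∃ R : E →L[ℂ] E, (∀ ψ : A.domain, R (A ψ - z • (ψ : E)) = ψ) ∧
    ∀ η : E, ∃ ψ : A.domain, A ψ - z • (ψ : E) = η}

/-- The Hilbert space `L²((ℝ³)^N; (ℂ²)^{⊗N})`: one `L²` function for each spin configuration. -/
abbrev Full (N : ℕ) : Type :=
  PiLp 2 fun _ : Fin N → Fin 2 => Lp ℂ 2 (volume : Measure (Conf N))

theorem ae_perm {N : ℕ} (σ : Equiv.Perm (Fin N)) {f g : Conf N → ℂ} (h : f =ᵐ[volume] g) :
    ∀ᵐ x : Conf N, f (x ∘ σ) = g (x ∘ σ) :=
  (P363.H382.permE_mp σ).quasiMeasurePreserving.ae_eq_comp h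

/-- The fermionic space `⋀^N L²(ℝ³; ℂ²)`: the vectors that are antisymmetric under simultaneous
permutation of the positions and the spins. -/
def Fer (N : ℕ) : Submodule ℂ (Full N) where
  carrier := {ψ | ∀ (σ : Equiv.Perm (Fin N)) (s : Fin N → Fin 2),
    AEConf fun x => ψ (s ∘ σ) (x ∘ σ) = ((Equiv.Perm.sign σ : ℤ) : ℂ) * ψ s x}
  add_mem' {φ ψ} hφ hψ σ s := by
    filter_upwards [hφ σ s, hψ σ s, ae_perm σ (Lp.coeFn_add (φ (s ∘ σ)) (ψ (s ∘ σ))),
      Lp.coeFn_add (φ s) (ψ s)] with x h1 h2 h3 h4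
    rw [PiLp.add_apply, PiLp.add_apply, h3, h4, Pi.add_apply, Pi.add_apply, h1, h2, mul_add]
  zero_mem' σ s := by
    filter_upwards [ae_perm σ (Lp.coeFn_zero ℂ 2 volume), Lp.coeFn_zero ℂ 2 volume] with x h1 h2
    rw [PiLp.zero_apply, PiLp.zero_apply, h1, h2, Pi.zero_apply, Pi.zero_apply, mul_zero]
  smul_mem' c ψ hψ σ s := by
    filter_upwards [hψ σ s, ae_perm σ (Lp.coeFn_smul c (ψ (s ∘ σ))), Lp.coeFn_smul c (ψ s)]
      with x h1 h2 h3
    rw [PiLp.smul_apply, PiLp.smul_apply, h2, h3, Pi.smul_apply, Pi.smul_apply, h1, smul_eq_mul,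
      smul_eq_mul, mul_left_comm]

variable {N : ℕ}

/-- The form domain `H¹ ∩ ⋀^N L²`: all weak partial derivatives exist in `L²`. -/
def InH1 (ψ : Fer N) : Prop := ∀ s i k, ∃ g, L2 g ∧ IsWeakDeriv i k (ψ.1 s) g

/-- The weak partial derivative in `L²` (unique almost everywhere) of the component `s` in the
`k`-th coordinate of the `i`-th electron. -/
def grad (ψ : Fer N) (s : Fin N → Fin 2) (i : Fin N) (k : Fin 3) : Conf N → ℂ :=
  Classical.epsilon fun g => L2 g ∧ IsWeakDeriv i k (ψ.1 s) g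

/-- The sesquilinear form of `-(1/2) Δ + w`, `w` acting by multiplication. -/
def form (w : Conf N → ℝ) (φ ψ : Fer N) : ℂ :=
  (1 / 2) * (∑ s, ∑ i, ∑ k, intC fun x => conj (grad φ s i k x) * grad ψ s i k x) +
    ∑ s, intC fun x => w x * (conj (φ.1 s x) * ψ.1 s x)

/-- The form of `-(1/2) Δ + w` on `H¹ ∩ ⋀^N L²` is well defined, densely defined, bounded below
and closed. -/
structure IsClosedForm (w : Conf N → ℝ) : Prop where
  int : ∀ φ ψ : Fer N, InH1 φ → InH1 ψ → ∀ s,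
    Integrable fun x => w x * (conj (φ.1 s x) * ψ.1 s x)
  dense : Dense {ψ : Fer N | InH1 ψ}
  low : ∃ m : ℝ, ∀ ψ, InH1 ψ → m * ‖ψ‖ ^ 2 ≤ (form w ψ ψ).re
  closed : ∀ (ψ : ℕ → Fer N) (φ : Fer N), (∀ n, InH1 (ψ n)) → Tendsto ψ atTop (𝓝 φ) →
    Tendsto (fun p : ℕ × ℕ => form w (ψ p.1 - ψ p.2) (ψ p.1 - ψ p.2)) atTop (𝓝 0) →
    InH1 φ ∧ Tendsto (fun n => form w (ψ n - φ) (ψ n - φ)) atTop (𝓝 0)

/-- The graph of the operator of the form: the pairs `(ψ, η)` with `ψ` in the form domain and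
`form φ ψ = ⟪φ, η⟫` for all `φ` in the form domain. -/
def formGraph (w : Conf N → ℝ) : Set (Fer N × Fer N) :=
  {p | InH1 p.1 ∧ ∀ φ, InH1 φ → form w φ p.1 = inner ℂ φ p.2}

/-- The operator `-(1/2) Δ + w` of the form: the operator with graph `formGraph w`. -/
def ham (w : Conf N → ℝ) : Fer N →ₗ.[ℂ] Fer N :=
  (Submodule.span ℂ (formGraph w)).toLinearPMap

end

end Vale.Agent.P370S
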