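import Mathlib.Analysis.InnerProductSpace.LinearPMap
import Vale.Agent.P370Z.Defs

/-!
# The electronic Hamiltonian as the self-adjoint operator of its form; the promise problem
-/

namespace Vale.Agent.P370T

open MeasureTheory Filter Topology P363.Stmt P370Z
open scoped ComplexConjugate

noncomputable section

section forms

variable {E : Type} [NormedAddCommGroup E] [InnerProductSpace ℂ E]

/-- The spectrum of an unbounded operator `A`: the numbers `z` such that `A - z` is not a
bijection from the domain of `A` onto the space with a bounded inverse. -/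
def spec (A : E →ₗ.[ℂ] E) : Set ℂ :=
  {z | ¬ ∃ R : E →L[ℂ] E, (∀ ψ : A.domain, R (A ψ - z • (ψ : E)) = ψ) ∧
    ∀ η : E, ∃ ψ : A.domain, A ψ - z • (ψ : E) = η}

/-- The graph of the operator of the form `q` with domain `D`: the pairs `(ψ, η)` with `ψ ∈ D`
and `q φ ψ = ⟪φ, η⟫` for all `φ ∈ D`. -/
def formGraph (D : Set E) (q : E → E → ℂ) : Set (E × E) :=
  {p | p.1 ∈ D ∧ ∀ φ ∈ D, q φ p.1 = inner ℂ φ p.2}

/-- The operator of the form: the operator with graph `formGraph D q`. -/
def formOp (D : Set E) (q : E → E → ℂ) : E →ₗ.[ℂ] E :=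
  (Submodule.span ℂ (formGraph D q)).toLinearPMap

/-- The infimum of the spectrum of the operator of the form. -/
def bottom (D : Set E) (q : E → E → ℂ) : ℝ := sInf {t : ℝ | (t : ℂ) ∈ spec (formOp D q)}

/-- `E` is a Hilbert space; the form `q` on `D` is densely defined, bounded below and closed; its
operator has the graph `formGraph D q`, is self-adjoint and has real spectrum; the infimum of the
spectrum is its least point and the infimum of the form on unit vectors. -/
structure Good (D : Set E) (q : E → E → ℂ) : Prop where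
  dense : Dense D
  low : ∃ m : ℝ, ∀ ψ ∈ D, m * ‖ψ‖ ^ 2 ≤ (q ψ ψ).re
  closed : ∀ (ψ : ℕ → E) (φ : E), (∀ n, ψ n ∈ D) → Tendsto ψ atTop (𝓝 φ) →
    Tendsto (fun p : ℕ × ℕ => q (ψ p.1 - ψ p.2) (ψ p.1 - ψ p.2)) atTop (𝓝 0) →
    φ ∈ D ∧ Tendsto (fun n => q (ψ n - φ) (ψ n - φ)) atTop (𝓝 0)
  graph : ∀ p, p ∈ (formOp D q).graph ↔ p ∈ formGraph D q
  selfAdjoint : ∃ _ : CompleteSpace E, IsSelfAdjoint (formOp D q)
  real : ∀ z ∈ spec (formOp D q), z.im = 0
  least : IsLeast {t : ℝ | (t : ℂ) ∈ spec (formOp D q)} (bottom D q)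
  glb : IsGLB {t | ∃ ψ ∈ D, ‖ψ‖ = 1 ∧ (q ψ ψ).re = t} (bottom D q)

end forms

/-- Spinor valued functions: one function for each spin configuration. -/
abbrev Spinor (N : ℕ) : Type := (Fin N → Fin 2) → Conf N → ℂ

variable {N : ℕ}

/-- Antisymmetry under simultaneous permutation of the positions and the spins. -/
def Anti (f : Spinor N) : Prop := ∀ (σ : Equiv.Perm (Fin N)) (s : Fin N → Fin 2),
  AEConf fun x => f (s ∘ σ) (x ∘ σ) = ((Equiv.Perm.sign σ : ℤ) : ℂ) * f s x

/-- `H¹`: all weak partial derivatives exist in `L²`. -/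
def InH1 (f : Spinor N) : Prop := ∀ s i k, ∃ g, L2 g ∧ IsWeakDeriv i k (f s) g

/-- The weak partial derivative in `L²` (unique almost everywhere) in the `k`-th coordinate of
the `i`-th electron. -/
def grad (i : Fin N) (k : Fin 3) (f : Conf N → ℂ) : Conf N → ℂ :=
  Classical.epsilon fun g => L2 g ∧ IsWeakDeriv i k f g

/-- The sesquilinear form of `-(1/2) Δ + w`, `w` acting by multiplication. -/
def form (w : Conf N → ℝ) (f g : Spinor N) : ℂ :=
  (1 / 2) * (∑ s, ∑ i, ∑ k, intC fun x => conj (grad i k (f s) x) * grad i k (g s) x) +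
    ∑ s, intC fun x => w x * (conj (f s x) * g s x)

section sub

variable {K : Type} [NormedAddCommGroup K] [InnerProductSpace ℂ K]

/-- The span of the antisymmetric vectors in a space `K` of spinors with components `a`. -/
def Fer (a : K → Spinor N) : Submodule ℂ K := Submodule.span ℂ {ψ | Anti (a ψ)}

/-- The form domain: the vectors of `Fer a` that lie in `H¹`. -/
def dom (a : K → Spinor N) : Set (Fer a) := {ψ | InH1 (a ψ)}

/-- The form of `-(1/2) Δ + w` on `Fer a`. -/
def formF (a : K → Spinor N) (w : Conf N → ℝ) (φ ψ : Fer a) : ℂ := form w (a φ) (a ψ)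

/-- All vectors of `Fer a` are antisymmetric, the potential term of the form converges on the form
domain, and the form is `Good`. -/
def GoodF (a : K → Spinor N) (w : Conf N → ℝ) : Prop :=
  (∀ ψ : Fer a, Anti (a ψ)) ∧
  (∀ φ ∈ dom a, ∀ ψ ∈ dom a, ∀ s,
    Integrable (fun x => w x * (conj (a φ s x) * a ψ s x)) (lebN N).volume) ∧
  Good (dom a) (formF a w)

/-- The infimum of the spectrum of the operator `-(1/2) Δ + w` on `Fer a`. -/
def botF (a : K → Spinor N) (w : Conf N → ℝ) : ℝ := bottom (dom a) (formF a w)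

end sub

/-- The Hilbert space `L²((ℝ³)^N)`. -/
abbrev LL (N : ℕ) : Type := Lp ℂ 2 (lebN N).volume

/-- The Hilbert space `L²((ℝ³)^N; (ℂ²)^{⊗N})`: one `L²` function for each spin configuration. -/
abbrev Full (N : ℕ) : Type := PiLp 2 fun _ : Fin N → Fin 2 => LL N

/-- The components of a vector; `Fer (amp N)` is the fermionic space `⋀^N L²(ℝ³; ℂ²)`. -/
def amp (N : ℕ) (ψ : Full N) : Spinor N := fun s => ψ s

/-- `E₀ = inf spec H`, `H` the operator of the Coulomb form on the fermionic space. -/
def E0 (I : Instance) : ℝ := botF (amp I.N) I.potential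

/-- YES instances: `E₀ ≤ a`. -/
def yesS (c : ℕ) : Set Word :=
  {x | ∃ I : Instance, I.code = x ∧ I.Valid ∧ I.Gap c ∧ E0 I ≤ I.a}

/-- NO instances: `E₀ ≥ b`. -/
def noS (c : ℕ) : Set Word :=
  {x | ∃ I : Instance, I.code = x ∧ I.Valid ∧ I.Gap c ∧ I.b ≤ E0 I}

end

end Vale.Agent.P370T
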