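import Mathlib.Analysis.InnerProductSpace.Positive
import Vale.Agent.P370S.Defs

/-! The self-adjoint operator of a coercive form and the bottom of its spectrum. -/

set_option linter.all false

namespace Vale.Agent.P370S

open Filter Topology ContinuousLinearMap
open scoped ComplexConjugate

variable {W H : Type} [NormedAddCommGroup W] [InnerProductSpace ℂ W] [CompleteSpace W]
  [NormedAddCommGroup H] [InnerProductSpace ℂ H] [CompleteSpace H]

/-- the form `⟪u, B v⟫` on the Hilbert space `W`, embedded in `H` by `J`, and its operator `A` -/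
structure Kit (J : W →L[ℂ] H) (B : W →L[ℂ] W) (A : H →ₗ.[ℂ] H) : Prop where
  den : DenseRange J
  sa : ∀ u v, inner ℂ (B u) v = inner ℂ u (B v)
  coe : ∃ c : ℝ, 0 < c ∧ ∃ m : ℝ, 0 ≤ m ∧ ∀ u, c * ‖u‖ ^ 2 ≤ (inner ℂ u (B u)).re + m * ‖J u‖ ^ 2
  gr : ∀ p, p ∈ A.graph ↔ ∃ u, J u = p.1 ∧ ∀ v, inner ℂ v (B u) = inner ℂ (J v) p.2

/-- the values of the form on the unit sphere -/
def vals (J : W →L[ℂ] H) (B : W →L[ℂ] W) : Set ℝ :=
  {t | ∃ u, ‖J u‖ = 1 ∧ (inner ℂ u (B u)).re = t}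

namespace Kit

variable {J : W →L[ℂ] H} {B : W →L[ℂ] W} {A : H →ₗ.[ℂ] H} (h : Kit J B A)
include h

theorem real (u : W) : inner ℂ u (B u) = ((inner ℂ u (B u)).re : ℂ) := by
  refine (Complex.conj_eq_iff_re.1 ?_).symm
  rw [inner_conj_symm, h.sa]

theorem solve {z : ℂ} {d : ℝ} (hd : 0 < d)
    (hz : ∀ u, d * ‖J u‖ ^ 2 ≤ ‖((inner ℂ u (B u)).re : ℂ) - z * (‖J u‖ ^ 2 : ℝ)‖) :
    ∃ S : H →L[ℂ] W, (∀ η v, inner ℂ v (B (S η)) = inner ℂ (J v) (η + z • J (S η))) ∧
      ∀ u η, (∀ v, inner ℂ v (B u) = inner ℂ (J v) η) → S (η - z • J u) = u := by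
  obtain ⟨c, hc, m, hm, hco⟩ := h.coe
  set T : W →L[ℂ] W := B - z • (adjoint J ∘L J) with hT
  have e : ∀ u v, inner ℂ v (T u) = inner ℂ v (B u) - z * inner ℂ (J v) (J u) := fun u v => by
    simp only [hT, sub_apply, smul_apply, comp_apply, inner_sub_right, inner_smul_right,
      adjoint_inner_right]
  have hk : 0 < c / (1 + (‖z‖ + m) / d) := by positivity
  obtain ⟨U, hU⟩ : IsUnit T := by
    refine isUnit_of_forall_le_norm_inner_map T (c := ⟨_, hk.le⟩) hk fun u => ?_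
    rw [← inner_conj_symm, RCLike.norm_conj, e, h.real, inner_self_eq_norm_sq_to_K]
    have h1 := hz u
    have h2 := hco u
    set a := (inner ℂ u (B u)).re
    set b := ‖J u‖ ^ 2 with hb
    have hb0 : 0 ≤ b := by positivity
    have e2 : ((‖J u‖ : ℝ) : ℂ) ^ 2 = (b : ℝ) := by rw [hb]; push_cast; rfl
    change ‖u‖ ^ 2 * (c / (1 + (‖z‖ + m) / d)) ≤ ‖(a : ℂ) - z * ((‖J u‖ : ℝ) : ℂ) ^ 2‖
    rw [e2]
    set n := ‖(a : ℂ) - z * (b : ℝ)‖
    have h3 : a ≤ n + ‖z‖ * b := by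
      have h4 := Complex.re_le_norm ((a : ℂ) - z * (b : ℝ))
      have h5 := Complex.re_le_norm z
      simp only [Complex.sub_re, Complex.ofReal_re, Complex.mul_re, Complex.ofReal_im, mul_zero,
        sub_zero] at h4
      nlinarith
    have h6 : b ≤ n / d := by rw [le_div_iff₀ hd]; linarith
    have h7 : (‖z‖ + m) * b ≤ (‖z‖ + m) * (n / d) := by gcongr
    rw [← mul_div_assoc, div_le_iff₀ (by positivity)]
    have : n * (1 + (‖z‖ + m) / d) = n + (‖z‖ + m) * (n / d) := by ring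
    nlinarith
  have i1 : ∀ u, T ((↑U⁻¹ : W →L[ℂ] W) u) = u := fun u => by
    rw [← hU]; exact DFunLike.congr_fun U.mul_inv u
  have i2 : ∀ u, (↑U⁻¹ : W →L[ℂ] W) (T u) = u := fun u => by
    rw [← hU]; exact DFunLike.congr_fun U.inv_mul u
  refine ⟨(↑U⁻¹ : W →L[ℂ] W) ∘L adjoint J, fun η v => ?_, fun u η hu => ?_⟩
  · have := e ((↑U⁻¹ : W →L[ℂ] W) (adjoint J η)) v
    rw [i1, adjoint_inner_right] at this
    rw [inner_add_right, inner_smul_right, comp_apply, this]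
    ring
  · rw [comp_apply, ← i2 u]
    congr 1
    refine ext_inner_left ℂ fun v => ?_
    rw [e, hu, adjoint_inner_right, i2, inner_sub_right, inner_smul_right]

theorem res {z : ℂ} {d : ℝ} (hd : 0 < d)
    (hz : ∀ u, d * ‖J u‖ ^ 2 ≤ ‖((inner ℂ u (B u)).re : ℂ) - z * (‖J u‖ ^ 2 : ℝ)‖) :
    z ∉ spec A := by
  obtain ⟨S, h1, h2⟩ := h.solve hd hz
  refine not_not.2 ⟨J ∘L S, fun ψ => ?_, fun η => ?_⟩
  · obtain ⟨u, hu, hv⟩ := (h.gr _).1 (A.mem_graph ψ)
    simp only at hu hv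
    rw [comp_apply, ← hu, h2 u _ hv]
  · obtain ⟨y, hy, hy'⟩ := A.mem_graph_iff.1 ((h.gr (J (S η), η + z • J (S η))).2 ⟨_, rfl, h1 η⟩)
    exact ⟨y, by rw [hy, hy', add_sub_cancel_right]⟩

theorem resI {z : ℂ} (hz : z.im ≠ 0) (u : W) :
    |z.im| * ‖J u‖ ^ 2 ≤ ‖((inner ℂ u (B u)).re : ℂ) - z * (‖J u‖ ^ 2 : ℝ)‖ := by
  refine le_trans (le_of_eq ?_) (Complex.abs_im_le_norm _)
  simp only [Complex.sub_im, Complex.ofReal_im, Complex.mul_im, Complex.ofReal_re, mul_zero,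
    zero_add, zero_sub, abs_neg, abs_mul, abs_pow, abs_norm]

theorem sym {p q : H × H} (hp : p ∈ A.graph) (hq : q ∈ A.graph) :
    inner ℂ p.2 q.1 = inner ℂ p.1 q.2 := by
  obtain ⟨u, hu, hu'⟩ := (h.gr _).1 hp
  obtain ⟨v, hv, hv'⟩ := (h.gr _).1 hq
  rw [← hu, ← hv, ← hv', ← h.sa, ← inner_conj_symm, ← hu', inner_conj_symm]

theorem onto {z : ℂ} (hz : z.im ≠ 0) (η : H) : ∃ ψ, (ψ, η + z • ψ) ∈ A.graph := by
  obtain ⟨S, h1, -⟩ := h.solve (abs_pos.2 hz) (h.resI hz)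
  exact ⟨_, (h.gr (J (S η), η + z • J (S η))).2 ⟨_, rfl, h1 η⟩⟩

theorem dense : Dense (A.domain : Set H) := by
  rw [Submodule.dense_iff_topologicalClosure_eq_top, Submodule.topologicalClosure_eq_top_iff,
    Submodule.eq_bot_iff]
  intro ξ hξ
  obtain ⟨ψ, hψ⟩ := h.onto (z := Complex.I) (by simp) ξ
  have h0 : inner ℂ ψ ξ = 0 := hξ ψ (LinearPMap.mem_domain_of_mem_graph hψ)
  have h1 := h.sym hψ hψ
  have h0' : inner ℂ ξ ψ = 0 := by rw [← inner_conj_symm, h0, map_zero]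
  simp only [inner_add_left, inner_add_right, inner_smul_left, inner_smul_right, h0, h0',
    Complex.conj_I] at h1
  have h2 : ψ = 0 := (inner_self_eq_zero (𝕜 := ℂ)).1 (by
    linear_combination (Complex.I / 2) * h1 + (inner ℂ ψ ψ) * Complex.I_mul_I)
  rw [h2] at hψ
  simpa using A.graph_fst_eq_zero_snd hψ rfl

theorem selfAdjoint : IsSelfAdjoint A := by
  refine LinearPMap.isSelfAdjoint_def.2 (LinearPMap.eq_of_eq_graph ?_)
  rw [LinearPMap.adjoint_graph_eq_graph_adjoint h.dense]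
  ext p
  rw [Submodule.mem_adjoint_iff]
  refine ⟨fun hp => ?_, fun hp a b hab => sub_eq_zero.2 (h.sym hab hp)⟩
  obtain ⟨ψ, hψ⟩ := h.onto (z := Complex.I) (by simp) (p.2 - Complex.I • p.1)
  obtain ⟨χ, hχ⟩ := h.onto (z := -Complex.I) (by simp) (p.1 - ψ)
  have h1 := hp _ _ hχ
  have h2 := h.sym hχ hψ
  have h3 : p.1 - ψ = 0 := by
    refine (inner_self_eq_zero (𝕜 := ℂ)).1 ?_
    rw [inner_sub_right]
    simp only [inner_add_left, inner_add_right, inner_smul_left, inner_smul_right, map_neg,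
      Complex.conj_I, neg_neg, inner_sub_right] at h1 h2
    linear_combination h1 - h2
  rw [← sub_eq_zero.1 h3, sub_add_cancel] at hψ
  exact hψ

theorem bdd : BddBelow (vals J B) := by
  obtain ⟨c, hc, m, hm, hco⟩ := h.coe
  refine ⟨-m, ?_⟩
  rintro _ ⟨u, hu, rfl⟩
  have := hco u
  rw [hu] at this
  nlinarith [mul_nonneg hc.le (sq_nonneg ‖u‖)]

theorem low (u : W) : sInf (vals J B) * ‖J u‖ ^ 2 ≤ (inner ℂ u (B u)).re := by
  obtain ⟨c, hc, m, hm, hco⟩ := h.coe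
  rcases (norm_nonneg (J u)).eq_or_lt with h0 | h0
  · have := hco u
    rw [← h0] at this ⊢
    nlinarith [mul_nonneg hc.le (sq_nonneg ‖u‖)]
  · have := csInf_le h.bdd ⟨((‖J u‖⁻¹ : ℝ) : ℂ) • u, by
      rw [map_smul, norm_smul, Complex.norm_real, norm_inv, norm_norm, inv_mul_cancel₀ h0.ne'], rfl⟩
    rw [map_smul, inner_smul_left, inner_smul_right, Complex.conj_ofReal, Complex.re_ofReal_mul,
      Complex.re_ofReal_mul] at this
    have e : (inner ℂ u (B u)).re =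
        ‖J u‖⁻¹ * (‖J u‖⁻¹ * (inner ℂ u (B u)).re) * ‖J u‖ ^ 2 := by field_simp
    rw [e]
    gcongr

theorem im_zero {z : ℂ} (hz : z ∈ spec A) : z.im = 0 := by
  by_contra h0
  exact h.res (abs_pos.2 h0) (h.resI h0) hz

theorem isLeast (hne : (vals J B).Nonempty) :
    IsLeast {t : ℝ | (t : ℂ) ∈ spec A} (sInf (vals J B)) := by
  set E := sInf (vals J B) with hE
  refine ⟨?_, fun t ht => ?_⟩
  · rintro ⟨R, h1, h2⟩
    set τ : ℝ := 1 / (‖R‖ + 1) with hτ
    have τ0 : 0 < τ := by positivity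
    have τ1 : τ * ‖R‖ ≤ 1 := by
      rw [hτ, one_div, inv_mul_le_iff₀ (by positivity)]; linarith
    have : E + τ ≤ E := le_csInf hne (by
      rintro _ ⟨v, hv, rfl⟩
      obtain ⟨ψ, hψ⟩ := h2 (J v)
      have hR := h1 ψ
      obtain ⟨u, hu, hu'⟩ := (h.gr _).1 (A.mem_graph ψ)
      simp only at hu hu'
      rw [hψ, ← hu] at hR
      have hA : A ψ = J v + (E : ℂ) • J u := by rw [hu, ← hψ, sub_add_cancel]
      have n1 : inner ℂ (J v) (J v) = 1 := by rw [inner_self_eq_norm_sq_to_K, hv]; simp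
      have n2 : (inner ℂ (J u) (J v)).re ≤ ‖R‖ := by
        refine (Complex.re_le_norm _).trans ((norm_inner_le_norm _ _).trans ?_)
        rw [← hR, hv, mul_one]
        simpa [hv] using R.le_opNorm (J v)
      have k := h.low (v - (τ : ℂ) • u)
      have k1 : inner ℂ u (B v) = 1 + E * inner ℂ (J u) (J v) := by
        rw [← h.sa, ← inner_conj_symm, hu', hA, inner_add_right, inner_smul_right, n1]
        simp
      rw [← hE, ← inner_self_eq_norm_sq (𝕜 := ℂ)] at k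
      simp only [map_sub, map_smul, inner_sub_left, inner_sub_right, inner_smul_left,
        inner_smul_right, Complex.conj_ofReal, hu', hA, k1, n1, inner_add_right, RCLike.re_to_complex,
        Complex.sub_re, Complex.add_re, Complex.re_ofReal_mul, Complex.one_re] at k
      nlinarith [mul_le_mul_of_nonneg_left n2 (mul_pos τ0 τ0).le])
    linarith
  · by_contra hlt
    refine h.res (sub_pos.2 (not_le.1 hlt)) (fun u => le_trans ?_ (Complex.re_le_norm _)) ht
    have := h.low u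
    simp only [Complex.sub_re, Complex.ofReal_re, Complex.re_ofReal_mul]
    linarith

theorem closed {u : ℕ → W} {φ : H} (h1 : Tendsto (fun n => J (u n)) atTop (𝓝 φ))
    (h2 : Tendsto (fun p : ℕ × ℕ => inner ℂ (u p.1 - u p.2) (B (u p.1 - u p.2))) atTop (𝓝 0)) :
    ∃ v, J v = φ ∧ Tendsto (fun n => inner ℂ (u n - v) (B (u n - v))) atTop (𝓝 0) := by
  obtain ⟨c, hc, m, hm, hco⟩ := h.coe
  have t1 : Tendsto (fun p : ℕ × ℕ => ‖J (u p.1 - u p.2)‖) atTop (𝓝 0) := by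
    have := cauchySeq_iff_tendsto_dist_atTop_0.1 h1.cauchySeq
    simpa only [dist_eq_norm, map_sub] using this
  have t2 := ((Complex.continuous_re.tendsto 0).comp h2).add ((t1.pow 2).const_mul m)
  have t3 : CauchySeq u := by
    rw [cauchySeq_iff_tendsto_dist_atTop_0]
    have t4 := (Real.continuous_sqrt.tendsto _).comp (t2.div_const c)
    simp only [Complex.zero_re, ne_eq, OfNat.ofNat_ne_zero, not_false_eq_true, zero_pow, mul_zero,
      add_zero, zero_div, Real.sqrt_zero] at t4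
    refine squeeze_zero (fun _ => dist_nonneg) (fun p => ?_) t4
    rw [dist_eq_norm]
    refine Real.le_sqrt_of_sq_le ?_
    rw [le_div_iff₀ hc, mul_comm]
    exact hco _
  obtain ⟨v, hv⟩ := cauchySeq_tendsto_of_complete t3
  refine ⟨v, tendsto_nhds_unique ((J.continuous.tendsto v).comp hv) h1, ?_⟩
  have t5 := hv.sub_const v
  simpa using t5.inner (𝕜 := ℂ) ((B.continuous.tendsto _).comp t5)

end Kit

end Vale.Agent.P370S
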