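import Vale.Agent.P370S.Main
import Vale.Agent.P370S.St

/-! Transfer to the definitions of the statement. -/

set_option linter.all false

namespace Vale.Agent.P370T

open MeasureTheory P363.Stmt P370Z
open scoped ComplexConjugate

variable {N : ℕ}

/-- the assertions for a subspace `S` -/
def GoodS (S : Submodule ℂ (Full N)) (w : Conf N → ℝ) (e : ℝ) : Prop :=
  ((∀ ψ : S, Anti (amp N ψ)) ∧
    (∀ φ ∈ {ψ : S | InH1 (amp N ψ)}, ∀ ψ ∈ {ψ : S | InH1 (amp N ψ)}, ∀ s,
      Integrable (fun x => w x * (conj (amp N φ s x) * amp N ψ s x)) (lebN N).volume) ∧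
    Good {ψ : S | InH1 (amp N ψ)} fun φ ψ : S => form w (amp N φ) (amp N ψ)) ∧
  bottom {ψ : S | InH1 (amp N ψ)} (fun φ ψ : S => form w (amp N φ) (amp N ψ)) = e

theorem fer_eq (N : ℕ) : Fer (amp N) = P370S.Fer N := Submodule.span_eq (P370S.Fer N)

theorem op_eq (w : Conf N → ℝ) : formOp {ψ : P370S.Fer N | InH1 (amp N ψ)}
    (fun φ ψ : P370S.Fer N => form w (amp N φ) (amp N ψ)) = P370S.ham w := rfl

theorem goodS (I : Instance) : GoodS (Fer (amp I.N)) I.potential (P370S.E0 I) := by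
  rw [fer_eq]
  obtain ⟨c, h1, h2, h3, h4, h5, h6⟩ := P370S.op I
  exact ⟨⟨fun ψ => ψ.2, fun φ a ψ b => h1.int φ ψ a b, h1.dense, h1.low, h1.closed,
    Set.ext_iff.1 h2, ⟨c, h3⟩, h4, h5, h6⟩, rfl⟩

theorem good (I : Instance) : GoodF (amp I.N) I.potential := (goodS I).1

theorem E0_eq (I : Instance) : E0 I = P370S.E0 I := (goodS I).2

theorem hard (c : ℕ) : QMAHard (yesS c) (noS c) := by
  have h1 : yesS c = P370S.yesS c := by simp only [yesS, P370S.yesS, E0_eq]
  have h2 : noS c = P370S.noS c := by simp only [noS, P370S.noS, E0_eq]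
  rw [h1, h2]
  exact P370S.hard c

end Vale.Agent.P370T
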