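import Vale.Agent.P370S.Defs
import Vale.Agent.P370Z.Defs

/-!
# The promise problem for the bottom of the spectrum of the electronic Hamiltonian
-/

namespace Vale.Agent.P370S

open P370Z

noncomputable section

/-- `E₀ = inf spec H`. -/
def E0 (I : Instance) : ℝ := sInf {t : ℝ | (t : ℂ) ∈ spec (ham I.potential)}

/-- YES instances: `E₀ ≤ a`. -/
def yesS (c : ℕ) : Set Word :=
  {x | ∃ I : Instance, I.code = x ∧ I.Valid ∧ I.Gap c ∧ E0 I ≤ I.a}

/-- NO instances: `E₀ ≥ b`. -/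
def noS (c : ℕ) : Set Word :=
  {x | ∃ I : Instance, I.code = x ∧ I.Valid ∧ I.Gap c ∧ I.b ≤ E0 I}

end

end Vale.Agent.P370S
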