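import Vale.Agent.P370S.Rep
import Vale.Agent.P370S.Prob
import Vale.Agent.P370Z.Fin.Main

/-! The bottom of the spectrum is the infimum of the form; QMA-hardness. -/

set_option linter.all false

namespace Vale.Agent.P370S

open P363.Stmt P363.H382 P370Z

theorem hd_pot (I : Instance) : Hd I.potential := by
  have h1 : ∀ (i : Fin I.N) (a : R3), Hd fun x : Conf I.N => 1 / ‖x i - a‖ := fun i a =>
    Hd.coul (ContinuousLinearMap.proj (R := ℝ) (φ := fun _ => R3) i) a i fun k => by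
      simp [dir, e3]
  have h2 : ∀ i, ∀ j ∈ Finset.Ioi i, Hd fun x : Conf I.N => 1 / ‖x i - x j‖ := fun i j hj => by
    have := Hd.coul (ContinuousLinearMap.proj (R := ℝ) (φ := fun _ : Fin I.N => R3) i -
      ContinuousLinearMap.proj (R := ℝ) (φ := fun _ => R3) j) 0 i fun k => by
        simp [dir, e3, (Finset.mem_Ioi.1 hj).ne']
    simpa using this
  have := ((Hd.sum Finset.univ fun i _ => Hd.list I.nuclei fun n =>
    (h1 i (point n.1)).mul n.2).mul (-1)).add
      (Hd.sum Finset.univ fun i _ => Hd.sum _ (h2 i))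
  simp only [mul_one_div, neg_one_mul] at this
  exact this

theorem E0_eq (I : Instance) : (E0 I : EReal) = I.groundEnergy :=
  (hd_pot I).rep.elim fun _ h => h.inf_eq

theorem op (I : Instance) : ∃ _ : CompleteSpace (Fer I.N), IsClosedForm I.potential ∧
    ((ham I.potential).graph : Set (Fer I.N × Fer I.N)) = formGraph I.potential ∧
    IsSelfAdjoint (ham I.potential) ∧ (∀ z ∈ spec (ham I.potential), z.im = 0) ∧
    IsLeast {t : ℝ | (t : ℂ) ∈ spec (ham I.potential)} (E0 I) ∧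
    IsGLB {t | ∃ ψ, InH1 ψ ∧ ‖ψ‖ = 1 ∧ (form I.potential ψ ψ).re = t} (E0 I) := by
  obtain ⟨V, h⟩ := (hd_pot I).rep
  haveI := complete I.N
  refine ⟨this, h.closedForm, h.graph_eq, h.kit.selfAdjoint, fun z hz => h.kit.im_zero hz, ?_⟩
  rw [E0, h.isLeast.csInf_eq]
  refine ⟨h.isLeast, ?_⟩
  have e : {t | ∃ ψ, InH1 ψ ∧ ‖ψ‖ = 1 ∧ (form I.potential ψ ψ).re = t} =
      vals (JF I.N) (opB V) := by
    ext t
    constructor
    · rintro ⟨ψ, h1, h2, h3⟩
      obtain ⟨u, rfl⟩ := inH1_iff.1 h1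
      exact ⟨u, h2, h.form_eq u u ▸ h3⟩
    · rintro ⟨u, h2, h3⟩
      exact ⟨_, inH1_iff.2 ⟨u, rfl⟩, h2, (h.form_eq u u).symm ▸ h3⟩
  rw [e]
  exact isGLB_csInf h.ne h.kit.bdd

theorem hard (c : ℕ) : QMAHard (yesS c) (noS c) := by
  have h1 : yesS c = yesWords c := by
    simp only [yesS, yesWords, ← E0_eq, EReal.coe_le_coe_iff]
  have h2 : noS c = noWords c := by
    simp only [noS, noWords, ← E0_eq, EReal.coe_le_coe_iff]
  rw [h1, h2]
  exact qma_hard c

end Vale.Agent.P370S
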