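import Vale.Agent.P370S.Abs
import Vale.Agent.P363.H382.Energy
import Vale.Agent.P363.R.Sob.Chain

/-! The fermionic space, the form domain, density. -/

set_option linter.all false

namespace Vale.Agent.P370S

open MeasureTheory Filter Topology P363.Stmt P363.H382 P363.R.Sob
open scoped ComplexConjugate ContDiff

noncomputable section

variable {N : ℕ}

theorem fer_iff {ψ : Full N} : ψ ∈ Fer N ↔ ∀ (σ : Equiv.Perm (Fin N)) (s : Spn N),
    permL σ (ψ (s ∘ σ)) = ((Equiv.Perm.sign σ : ℤ) : ℂ) • ψ s := by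
  refine forall_congr' fun σ => forall_congr' fun s => ⟨fun h => Lp.ext ?_, fun h => ?_⟩
  · filter_upwards [h, permL_ae σ (ψ (s ∘ σ)),
      Lp.coeFn_smul ((Equiv.Perm.sign σ : ℤ) : ℂ) (ψ s)] with x a1 a2 a3
    rw [a2, a3, a1]
    rfl
  · have h1 := permL_ae σ (ψ (s ∘ σ))
    rw [h] at h1
    filter_upwards [h1, Lp.coeFn_smul ((Equiv.Perm.sign σ : ℤ) : ℂ) (ψ s)] with x a1 a2
    rw [← a1, a2]
    rfl

theorem complete (N : ℕ) : CompleteSpace (Fer N) := by
  have : (Fer N : Set (Full N)) = ⋂ (σ : Equiv.Perm (Fin N)) (s : Spn N), {ψ : Full N |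
      permL σ (ψ (s ∘ σ)) = ((Equiv.Perm.sign σ : ℤ) : ℂ) • ψ s} := by
    ext u; simp [fer_iff]
  have h : IsClosed (Fer N : Set (Full N)) := by
    rw [this]
    refine isClosed_iInter fun σ => isClosed_iInter fun s => isClosed_eq ?_ ?_
    · exact (permL σ).continuous.comp (by fun_prop)
    · fun_prop
  exact h.completeSpace_coe

/-- the embedding of the form domain -/
def JF (N : ℕ) : FS N →L[ℂ] Fer N :=
  (am.comp (FSub N).subtypeL).codRestrict (Fer N) fun u => fer_iff.2 u.2.2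

theorem JF_apply (u : FS N) (s : Spn N) : (JF N u).1 s = u.1 (s, none) := rfl

theorem inH1_iff {ψ : Fer N} : InH1 ψ ↔ ∃ u, JF N u = ψ := by
  constructor
  · intro h
    choose g h1 h2 using h
    refine ⟨toFS ⟨fun s => ψ.1 s, g, fun s => Lp.memLp _, h1, h2, ψ.2⟩, ?_⟩
    exact Subtype.ext (PiLp.ext fun s => Lp.ext (amb_none_ae _ s))
  · rintro ⟨u, rfl⟩ s i k
    exact ⟨_, Lp.memLp _, isWeakDeriv_iff.2 (u.2.1 s i k)⟩

theorem grad_ae (u : FS N) (s : Spn N) (i : Fin N) (k : Fin 3) :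
    grad (JF N u) s i k =ᵐ[volume] u.1 (s, some (i, k)) := by
  obtain ⟨h1, h2⟩ := Classical.epsilon_spec (inH1_iff.2 ⟨u, rfl⟩ s i k)
  exact (isWeakDeriv_iff.1 h2).unique (u.2.1 s i k)
    (MemLp.locallyIntegrable h1 (by norm_num)) ((Lp.memLp _).locallyIntegrable (by norm_num))

theorem inner_LC (f g : LC N) : inner ℂ f g = ∫ x, conj (f x) * g x := by
  rw [L2.inner_def]
  simp [mul_comm]

theorem inner_Fer (φ ψ : Fer N) : inner ℂ φ ψ = ∑ s, ∫ x, conj (φ.1 s x) * ψ.1 s x := by
  rw [Submodule.coe_inner, PiLp.inner_apply]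
  simp only [inner_LC]

theorem inner_FS (u v : FS N) : inner ℂ u v = inner ℂ (JF N u) (JF N v) +
    ∑ s, ∑ i, ∑ k, intC fun x => conj (grad (JF N u) s i k x) * grad (JF N v) s i k x := by
  rw [Submodule.coe_inner, PiLp.inner_apply, inner_Fer, Fintype.sum_prod_type,
    ← Finset.sum_add_distrib]
  refine Finset.sum_congr rfl fun s _ => ?_
  rw [Fintype.sum_option, Fintype.sum_prod_type, inner_LC]
  congr 1
  refine Finset.sum_congr rfl fun i _ => Finset.sum_congr rfl fun k _ => ?_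
  rw [inner_LC]
  refine integral_congr_ae ?_
  filter_upwards [grad_ae u s i k, grad_ae v s i k] with x h1 h2
  rw [h1, h2]

theorem norm_FS (u : FS N) : ‖u‖ ^ 2 = ‖JF N u‖ ^ 2 + kin u.1 := norm_sq_eq u.1

/-- antisymmetrisation of a function in one spin component -/
def asy (φ : Conf N → ℝ) (t s : Spn N) (x : Conf N) : ℂ :=
  ∑ σ : Equiv.Perm (Fin N), if s ∘ σ = t then ((Equiv.Perm.sign σ : ℤ) : ℂ) * φ (x ∘ σ) else 0

theorem sg2 (σ : Equiv.Perm (Fin N)) :
    ((Equiv.Perm.sign σ : ℤ) : ℂ) * ((Equiv.Perm.sign σ : ℤ) : ℂ) = 1 := by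
  rcases Int.units_eq_one_or (Equiv.Perm.sign σ) with h | h <;> simp [h]

theorem asy_smooth {φ : Conf N → ℝ} (h : Test φ) (t s : Spn N) :
    ContDiff ℝ ∞ (asy φ t s) ∧ HasCompactSupport (asy φ t s) := by
  have k : ∀ σ : Equiv.Perm (Fin N), Test fun x : Conf N => φ (x ∘ σ) := fun σ =>
    test_comp_equiv h (permE σ)
  constructor
  · refine ContDiff.sum fun σ _ => ?_
    split_ifs
    · exact contDiff_const.mul (Complex.ofRealCLM.contDiff.comp (k σ).1)
    · exact contDiff_const
  · have : asy φ t s = ∑ σ : Equiv.Perm (Fin N), fun x : Conf N =>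
        if s ∘ σ = t then ((Equiv.Perm.sign σ : ℤ) : ℂ) * φ (x ∘ σ) else 0 := by
      funext x; rw [Finset.sum_apply]; rfl
    rw [this]
    refine HasCompactSupport.finset_sum fun σ _ => ?_
    split_ifs
    · exact ((k σ).2.comp_left (g := fun t : ℝ => (t : ℂ)) (by simp)).mul_left
    · exact HasCompactSupport.zero

theorem asy_perm (φ : Conf N → ℝ) (t s : Spn N) (τ : Equiv.Perm (Fin N)) (x : Conf N) :
    asy φ t (s ∘ τ) (x ∘ τ) = ((Equiv.Perm.sign τ : ℤ) : ℂ) * asy φ t s x := by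
  unfold asy
  rw [Finset.mul_sum]
  refine Fintype.sum_equiv (Equiv.mulLeft τ) _ _ fun σ => ?_
  simp only [Equiv.coe_mulLeft, Equiv.Perm.coe_mul, Function.comp_assoc, Equiv.Perm.sign_mul,
    Units.val_mul, Int.cast_mul]
  split_ifs
  · rw [← mul_assoc, ← mul_assoc, sg2, one_mul]
  · rw [mul_zero]

/-- the antisymmetrised state -/
def asyS {φ : Conf N → ℝ} (h : Test φ) (t : Spn N) : ElectronState N where
  amp s := asy φ t s
  grad s i k x := fderiv ℝ (asy φ t s) x (dir i k)
  amp_memLp s := (asy_smooth h t s).1.continuous.memLp_of_hasCompactSupport (asy_smooth h t s).2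
  grad_memLp s i k := (((asy_smooth h t s).1.continuous_fderiv (by simp)).clm_apply
    continuous_const).memLp_of_hasCompactSupport ((asy_smooth h t s).2.fderiv_apply (𝕜 := ℝ) _)
  grad_weak s i k := isWeakDeriv_iff.2 (isWD_of_contDiff ((asy_smooth h t s).1.of_le (by simp)))
  antisymm σ s := Eventually.of_forall (asy_perm φ t s σ)

theorem inner_asy {φ : Conf N → ℝ} (h : Test φ) (t : Spn N) (ψ : Fer N) :
    inner ℂ (JF N (toFS (asyS h t))) ψ =
      Fintype.card (Equiv.Perm (Fin N)) * ∫ x, φ x • ψ.1 t x := by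
  have k : ∀ s, ∫ x, conj ((JF N (toFS (asyS h t))).1 s x) * ψ.1 s x =
      ∑ σ : Equiv.Perm (Fin N), if s ∘ σ = t then ∫ x, φ x • ψ.1 t x else 0 := fun s => by
    have i1 : Integrable fun x => φ x • ψ.1 t x :=
      h.integrable_smul ((Lp.memLp _).locallyIntegrable (by norm_num))
    have e : (fun x => conj ((JF N (toFS (asyS h t))).1 s x) * ψ.1 s x) =ᵐ[volume] fun x =>
        ∑ σ : Equiv.Perm (Fin N), if s ∘ σ = t then φ (x ∘ σ) • ψ.1 t (x ∘ σ) else 0 := by
      filter_upwards [amb_none_ae (asyS h t) s, ae_all_iff.2 fun σ => ψ.2 σ s] with x h1 h2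
      rw [JF_apply]
      change conj (amb (asyS h t) (s, none) x) * _ = _
      rw [h1]
      change conj (asy φ t s x) * _ = _
      rw [asy, map_sum, Finset.sum_mul]
      refine Finset.sum_congr rfl fun σ _ => ?_
      split_ifs with hs
      · rw [← hs, h2, map_mul, map_intCast, Complex.conj_ofReal, Complex.real_smul]
        ring
      · simp
    rw [integral_congr_ae e, integral_finsetSum]
    · refine Finset.sum_congr rfl fun σ _ => ?_
      split_ifs
      · exact integral_perm σ fun x => φ x • ψ.1 t x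
      · simp
    · intro σ _
      split_ifs
      · exact (integrable_perm_iff σ).2 i1
      · exact integrable_zero _ _ _
  rw [inner_Fer, Finset.sum_congr rfl fun s _ => k s, Finset.sum_comm]
  have : ∀ σ : Equiv.Perm (Fin N), (∑ s : Spn N, if s ∘ σ = t then ∫ x, φ x • ψ.1 t x else 0) =
      ∫ x, φ x • ψ.1 t x := fun σ => by
    rw [Finset.sum_eq_single (t ∘ σ.symm), if_pos (by funext i; simp)]
    · intro s _ hs
      refine if_neg fun e => hs ?_
      funext i
      simp [← e]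
    · simp
  simp only [this, Finset.sum_const, Finset.card_univ, nsmul_eq_mul]

theorem JF_dense (N : ℕ) : DenseRange (JF N) := by
  haveI := complete N
  have : Dense ((LinearMap.range (JF N : FS N →ₗ[ℂ] Fer N) : Submodule ℂ (Fer N)) :
      Set (Fer N)) := by
    rw [Submodule.dense_iff_topologicalClosure_eq_top, Submodule.topologicalClosure_eq_top_iff,
      Submodule.eq_bot_iff]
    intro ψ hψ
    refine Subtype.ext (PiLp.ext fun t => Lp.ext ?_)
    refine EventuallyEq.trans ?_ (Lp.coeFn_zero ℂ 2 volume).symm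
    refine ae_eq_zero_of_integral_contDiff_smul_eq_zero
      ((Lp.memLp _).locallyIntegrable (by norm_num)) fun φ h1 h2 => ?_
    have hφ : Test φ := ⟨h1, h2⟩
    have := (inner_asy hφ t ψ).symm.trans (hψ _ ⟨toFS (asyS hφ t), rfl⟩)
    exact (mul_eq_zero.1 this).resolve_left (Nat.cast_ne_zero.2 Fintype.card_ne_zero)
  exact this

theorem exists_unit (N : ℕ) : ∃ u : FS N, ‖JF N u‖ = 1 := by
  let p : Conf N := fun i => ((i : ℕ) : ℝ) • e3 0
  let b : ContDiffBump p := ⟨1 / 4, 1 / 2, by norm_num, by norm_num⟩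
  have hb : Test b := ⟨b.contDiff, b.hasCompactSupport⟩
  have h1 : asy b 0 0 p = 1 := by
    rw [asy, Finset.sum_eq_single 1, if_pos (by rfl)]
    · simp [b.one_of_mem_closedBall (Metric.mem_closedBall_self b.rIn_pos.le)]
    · intro σ _ hσ
      obtain ⟨i, hi⟩ : ∃ i, σ i ≠ i := not_forall.1 fun h => hσ (Equiv.ext h)
      rw [b.zero_of_le_dist]
      · simp
      · refine le_trans ?_ (dist_le_pi_dist _ _ i)
        have : (1 : ℝ) ≤ |((σ i : ℕ) : ℝ) - (i : ℕ)| := by
          have : (1 : ℤ) ≤ |((σ i : ℕ) : ℤ) - (i : ℕ)| :=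
            Int.one_le_abs (sub_ne_zero.2 fun e => hi (Fin.ext (by exact_mod_cast e)))
          exact_mod_cast this
        simp only [p, Function.comp_apply, dist_eq_norm, ← sub_smul, norm_smul, e3,
          EuclideanSpace.norm_single, norm_one, mul_one, Real.norm_eq_abs]
        change (1 / 2 : ℝ) ≤ _
        linarith
    · simp
  have h2 : JF N (toFS (asyS hb 0)) ≠ 0 := fun h => by
    have e : (JF N (toFS (asyS hb 0))).1 0 =ᵐ[volume] asy b 0 0 := amb_none_ae (asyS hb 0) 0
    rw [h] at e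
    have := (Continuous.ae_eq_iff_eq volume continuous_zero
      (asy_smooth hb 0 0).1.continuous).1 ((Lp.coeFn_zero ℂ 2 volume).symm.trans e)
    rw [← this] at h1
    exact zero_ne_one h1
  refine ⟨((‖JF N (toFS (asyS hb 0))‖⁻¹ : ℝ) : ℂ) • toFS (asyS hb 0), ?_⟩
  rw [map_smul, norm_smul, Complex.norm_real, norm_inv, norm_norm,
    inv_mul_cancel₀ (norm_ne_zero_iff.2 h2)]

end

end Vale.Agent.P370S
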